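import Vale.Agent.P280M85.Ord
import Vale.Agent.P299G11.Frm
import Vale.Agent.P299G50.Hol

/-!
# P280M85: the row `MER`
-/

set_option linter.all false

open scoped Manifold ContDiff Topology
open Filter MvPolynomial Matrix Vale.Agent.P272.K Vale.Agent.P299G40 Vale.Agent.P300.Final
open Vale.Agent.P009.AV (aff)

noncomputable section

namespace Vale.Agent.P280A.M85

variable {S : Type} [TopologicalSpace S] [ChartedSpace (Cm 1) S] [IsManifold 𝓘(ℂ, Cm 1) ω S]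
  {K : ℕ} {Φ : S → PN K}

theorem ev_rep (hΦ : IsProjectiveImmersion (Cm 1) Φ) {q : S} {i : Fin (K + 1)}
    (hi : (Φ q).rep i ≠ 0) : ∀ᶠ x in 𝓝 q, (Φ x).rep i ≠ 0 := by
  filter_upwards [((chartAt (Cm 1) q).continuousAt (atc q).2).eventually
    (P299G50.aff_holo hΦ (atc q) hi).1, (chartAt (Cm 1) q).open_source.mem_nhds (atc q).2]
    with x x1 x2
  rwa [(chartAt (Cm 1) q).left_inv x2] at x1

theorem form_loc (hΦ : IsProjectiveImmersion (Cm 1) Φ) {F : MvPolynomial (Fin (K + 1)) ℂ} {d : ℕ}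
    (hF : F.IsHomogeneous d) {q : S} {i : Fin (K + 1)} (hi : (Φ q).rep i ≠ 0)
    (h0 : ¬ ∀ᶠ x in 𝓝 q, eval (Φ x).rep F = 0) :
    (∃ m, OrdAt (fun x => eval (aff i (Φ x)) F) q m) ∧ ∀ᶠ x in 𝓝[≠] q, ¬ eval (Φ x).rep F = 0 := by
  have a : An (fun x => eval (aff i (Φ x)) F) q := (P299G50.eval_holo hΦ (atc q) hi F).analyticAt
  obtain ⟨m, hm⟩ := a.ord fun e => h0 (by
    filter_upwards [e, ev_rep hΦ hi] with x x1 x2
    rw [P299G50.eval_aff hF] at x1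
    exact (mul_eq_zero.1 x1).resolve_left (pow_ne_zero _ (inv_ne_zero x2)))
  refine ⟨⟨m, hm⟩, (ord_ne hm).mono fun x hx => ?_⟩
  rw [P299G50.eval_aff hF] at hx
  exact right_ne_zero_of_mul hx

theorem form_all [ConnectedSpace S] (hΦ : IsProjectiveImmersion (Cm 1) Φ)
    {F : MvPolynomial (Fin (K + 1)) ℂ} {d : ℕ} (hF : F.IsHomogeneous d) {p : S}
    (hp : ¬ ∀ᶠ x in 𝓝 p, eval (Φ x).rep F = 0) (q : S) :
    ¬ ∀ᶠ x in 𝓝 q, eval (Φ x).rep F = 0 :=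
  ident (fun y hy => by
    obtain ⟨i, hi⟩ : ∃ i, (Φ y).rep i ≠ 0 := Function.ne_iff.1 (Φ y).rep_nonzero
    exact (form_loc hΦ hF hi hy).2) hp q

theorem ex_par (hΦ : IsProjectiveImmersion (Cm 1) Φ) (p : S) :
    ∃ (j k : Fin (K + 1)), (Φ p).rep j ≠ 0 ∧
      (∃ w ∈ tangent (Set.range Φ) (Φ p), (Φ p).rep j * w k - (Φ p).rep k * w j ≠ 0) ∧
      OrdAt (fun x => (Φ p).rep j * aff j (Φ x) k - (Φ p).rep k) p 1 := by
  have h := atc p
  obtain ⟨f, hf, h0, hev, him⟩ := P299G11.exists_lift hΦ h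
  obtain ⟨j, hj⟩ : ∃ i, (Φ p).rep i ≠ 0 := Function.ne_iff.1 (Φ p).rep_nonzero
  set e : Chart 1 S := chartAt (Cm 1) p with he
  set L := fderiv ℂ f (e p) with hL
  have hd : HasFDerivAt f L (e p) := (hf.differentiableAt (by simp)).hasFDerivAt
  have hLt : ∀ v, L v ∈ tangent (Set.range Φ) (Φ p) := by
    rintro v P ⟨⟨d, hP⟩, hP0⟩
    obtain ⟨D, hD, hD'⟩ := P299G11.exists_fderiv P (Φ p).rep
    have h1 : HasFDerivAt (fun z => eval (f z) P) (D.comp L) (e p) :=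
      HasFDerivAt.comp (g := fun y => eval y P) (e p) (by rwa [h0]) hd
    have h2 : (fun z => eval (f z) P) =ᶠ[𝓝 (e p)] fun _ => 0 := by
      filter_upwards [hev] with z hz
      obtain ⟨c, -, hz⟩ := hz
      rw [hz, P009.AV.H532.eval_smul' hP, hP0 _ (Set.mem_range_self _), mul_zero]
    have h3 := (h1.congr_of_eventuallyEq h2.symm).unique (hasFDerivAt_const (0 : ℂ) (e p))
    rw [← hD']
    exact congrArg (fun T : Cm 1 →L[ℂ] ℂ => T v) h3
  obtain ⟨k, hk⟩ : ∃ k, L (fun _ => 1) k * (Φ p).rep j - L (fun _ => 1) j * (Φ p).rep k ≠ 0 := by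
    by_contra b
    push Not at b
    have := him (fun _ => 1) (L (fun _ => 1) j / (Φ p).rep j) (funext fun k => by
      simp only [Pi.smul_apply, smul_eq_mul]
      rw [div_mul_eq_mul_div, eq_div_iff hj]
      exact sub_eq_zero.1 (b k))
    exact one_ne_zero (congrFun this 0)
  have a := ((P299G50.aff_holo hΦ h hj).2 k).analyticAt
  refine ⟨j, k, hj, ⟨_, hLt (fun _ => 1), fun b => hk (by rw [← b]; ring)⟩,
    An.ord_one ((analyticAt_const.fun_mul a).fun_sub analyticAt_const) ?_ ?_⟩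
  · exact sub_eq_zero.2 (mul_div_cancel₀ _ hj)
  · have d := ((a.differentiableAt.hasFDerivAt.const_mul ((Φ p).rep j)).sub_const ((Φ p).rep k)).fderiv
    erw [d]
    simp only [ContinuousLinearMap.smul_apply, smul_eq_mul]
    rw [P299G11.fderiv_aff hf h0 hev hj]
    exact mul_ne_zero hj (div_ne_zero hk (pow_ne_zero _ hj))

end Vale.Agent.P280A.M85

namespace Vale.Agent.P280A

open M85

theorem mer85 (map : MAP) : MER := by
  intro K S _ _ _ _ _ _ Φ h inj hΦ hm p m hp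
  obtain ⟨j, k, hj, ⟨w, hw, hw'⟩, ho⟩ := ex_par hΦ p
  set r := (Φ p).rep with hr
  let ℓ : Fin (K + 1) → ℂ := Pi.single k (r j) - Pi.single j (r k)
  have hℓ : ∀ y : Fin (K + 1) → ℂ, ℓ ⬝ᵥ y = r j * y k - r k * y j := fun y => by
    simp only [ℓ, sub_dotProduct, single_dotProduct]
  let G : MvPolynomial (Fin (K + 1)) ℂ := C (r j) * X k - C (r k) * X j
  have hG : G.IsHomogeneous 1 := (isHomogeneous_C_mul_X _ _).sub (isHomogeneous_C_mul_X _ _)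
  have eG : ∀ y, eval y G = r j * y k - r k * y j := fun y => by simp [G]
  let τ : S → ℂ := fun x => ℓ ⬝ᵥ (Φ x).rep / (Φ x).rep j
  have t1 : OrdAt τ p 1 := ord_congr ho (by
    filter_upwards [nhdsWithin_le_nhds (ev_rep hΦ hj)] with x hx
    simp only [τ, hℓ, aff]
    field_simp)
  haveI := nb p
  have g0 : ¬ ∀ᶠ x in 𝓝 p, eval (Φ x).rep G = 0 := fun b => by
    obtain ⟨x, x1, x2⟩ := ((ord_ne t1).and (nhdsWithin_le_nhds b)).exists
    exact x1 (by simp only [τ]; rw [hℓ, ← eG, x2, zero_div])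
  have x0 : ¬ ∀ᶠ x in 𝓝 p, eval (Φ x).rep (X j : MvPolynomial (Fin (K + 1)) ℂ) = 0 := fun b =>
    hj (by simpa using b.self_of_nhds)
  have ta : ∀ q, ∃ n, OrdAt τ q n := fun q => by
    obtain ⟨i, hi⟩ : ∃ i, (Φ q).rep i ≠ 0 := Function.ne_iff.1 (Φ q).rep_nonzero
    obtain ⟨a, ha⟩ := (form_loc hΦ hG hi (form_all hΦ hG g0 q)).1
    obtain ⟨b, hb⟩ := (form_loc hΦ (isHomogeneous_X ℂ j) hi
      (form_all hΦ (isHomogeneous_X ℂ j) x0 q)).1
    refine ⟨_, ord_congr (ord_div ha hb 1) ?_⟩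
    filter_upwards [nhdsWithin_le_nhds (ev_rep hΦ hi)] with x hx
    rw [P299G50.eval_aff hG, P299G50.eval_aff (isHomogeneous_X ℂ j), zpow_one,
      mul_div_mul_left _ _ (pow_ne_zero _ (inv_ne_zero hx)), eG, eval_X]
    simp only [τ, hℓ]
  obtain ⟨Ψ, hΨ, e1, e2⟩ := ex_map (u := fun x => h (Φ x) / τ x ^ m) fun q => by
    obtain ⟨a, ha⟩ := hm q
    obtain ⟨b, hb⟩ := ta q
    exact ⟨_, ord_div ha hb m⟩
  obtain ⟨f, hf, ef⟩ := map 1 K 1 S Φ Ψ inj hΦ hΨ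
  obtain ⟨F, d, F1, F2, F3⟩ := hf (Φ p) (Set.mem_range_self p)
  have u0 := ord_div hp t1 m
  rw [one_mul, sub_self] at u0
  obtain ⟨P0, Q0⟩ := e2 p u0 _ F2 ((ef p).symm.trans (F3 _ (Set.mem_range_self p) F2))
  refine ⟨ℓ, j, F 0, F 1, d, by rw [hℓ]; ring, ⟨w, hw, by rwa [hℓ]⟩, hj, F1 0, F1 1, P0, Q0, ?_⟩
  refine ((fin_bad (P := fun x => h (Φ x) = τ x ^ m * (eval (Φ x).rep (F 0) /
    eval (Φ x).rep (F 1))) fun q => ?_).image Φ).subset ?_
  · obtain ⟨i, hi⟩ : ∃ i, (Φ q).rep i ≠ 0 := Function.ne_iff.1 (Φ q).rep_nonzero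
    obtain ⟨b, hb⟩ := ta q
    filter_upwards [(form_loc hΦ (F1 1) hi (form_all hΦ (F1 1)
      (fun b => Q0 b.self_of_nhds) q)).2, e1 q, ord_ne hb] with x x1 x2 x3
    have n : val F (Φ x) ≠ 0 := fun b => x1 (congrFun b 1)
    obtain ⟨a0, -⟩ := x2 _ n ((ef x).symm.trans (F3 _ (Set.mem_range_self x) n))
    change eval (Φ x).rep (F 0) = _ * eval (Φ x).rep (F 1) at a0
    rw [a0, mul_div_cancel_right₀ _ x1, mul_div_cancel₀ _ (zpow_ne_zero _ x3)]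
  · rintro _ ⟨⟨x, rfl⟩, hx⟩
    exact ⟨x, hx, rfl⟩

end Vale.Agent.P280A

end
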