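import Vale.Agent.P280A30.Rows
import Vale.Agent.P272.K.Inv.Chart
import Mathlib.Analysis.Analytic.Order

/-!
# P280M85: orders of meromorphic functions on a Riemann surface
-/

set_option linter.all false

open scoped Manifold ContDiff Topology
open Filter Vale.Agent.P272.K Vale.Agent.P299G40

noncomputable section

namespace Vale.Agent.P280A.M85

variable {S : Type} [TopologicalSpace S] [ChartedSpace (Cm 1) S]

/-- `g` is holomorphic at `p`. -/
def An (g : S → ℂ) (p : S) : Prop :=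
  AnalyticAt ℂ (fun z => g ((chartAt (Cm 1) p).symm z)) (chartAt (Cm 1) p p)

theorem atc (x : S) : At (chartAt (Cm 1) x : Chart 1 S) x :=
  ⟨chart_mem_atlas _ _, mem_chart_source _ _⟩

theorem nb (y : S) : (𝓝[≠] y).NeBot := by
  have h := atc y
  set c : Chart 1 S := chartAt (Cm 1) y
  have t : Tendsto c.symm (𝓝[≠] (c y)) (𝓝[≠] y) := by
    refine tendsto_nhdsWithin_iff.2 ⟨(c.tendsto_symm h.2).mono_left nhdsWithin_le_nhds, ?_⟩
    filter_upwards [nhdsWithin_le_nhds h.nhds_target, self_mem_nhdsWithin] with z z1 z2 e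
    exact z2 (by rw [Set.mem_singleton_iff, ← c.right_inv z1, Set.mem_singleton_iff.1 e])
  haveI : (𝓝[≠] (c y)).NeBot := Module.punctured_nhds_neBot ℂ _ _
  exact t.neBot

theorem An.evc {g : S → ℂ} {p : S} (h : An g p) : ∀ᶠ x in 𝓝 p, ContinuousAt g x := by
  have a := atc p
  unfold An at h
  set c : Chart 1 S := chartAt (Cm 1) p
  filter_upwards [(c.continuousAt a.2).eventually h.eventually_analyticAt,
    c.open_source.mem_nhds a.2] with x x1 x2
  refine (x1.continuousAt.comp (c.continuousAt x2)).congr ?_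
  filter_upwards [c.open_source.mem_nhds x2] with z hz
  exact congrArg g (c.left_inv hz)

theorem An.cont {g : S → ℂ} {p : S} (h : An g p) : ContinuousAt g p := h.evc.self_of_nhds

theorem An.congr {g g' : S → ℂ} {p : S} (h : An g p) (e : g =ᶠ[𝓝 p] g') : An g' p :=
  AnalyticAt.congr h (((chartAt (Cm 1) p).tendsto_symm (atc p).2).eventually e)

theorem an_loc (p : S) : An (fun x => chartAt (Cm 1) p x 0 - chartAt (Cm 1) p p 0) p := by
  have : AnalyticAt ℂ (fun z : Cm 1 => z 0 - chartAt (Cm 1) p p 0) (chartAt (Cm 1) p p) :=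
    ((ContinuousLinearMap.proj (R := ℂ) (φ := fun _ : Fin 1 => ℂ) 0).analyticAt _).sub
      analyticAt_const
  refine this.congr ?_
  filter_upwards [(atc p).nhds_target] with z hz
  rw [(chartAt (Cm 1) p).right_inv hz]

theorem loc_ne (p : S) : ∀ᶠ x in 𝓝[≠] p, chartAt (Cm 1) p x 0 - chartAt (Cm 1) p p 0 ≠ 0 := by
  filter_upwards [nhdsWithin_le_nhds ((chartAt (Cm 1) p).open_source.mem_nhds (atc p).2),
    self_mem_nhdsWithin] with x x1 x2 e
  refine x2 ((chartAt (Cm 1) p).injOn x1 (atc p).2 (funext fun i => ?_))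
  rw [Subsingleton.elim i 0]
  exact sub_eq_zero.1 e

theorem ord_ne {g : S → ℂ} {p : S} {m : ℤ} (h : OrdAt g p m) : ∀ᶠ x in 𝓝[≠] p, g x ≠ 0 := by
  obtain ⟨u, u1, u2, u3⟩ := h
  filter_upwards [u3, loc_ne p, nhdsWithin_le_nhds ((An.cont u1).eventually_ne u2)]
    with x x1 x2 x3
  rw [x1]
  exact mul_ne_zero x3 (zpow_ne_zero _ x2)

theorem ord_congr {g g' : S → ℂ} {p : S} {m : ℤ} (h : OrdAt g p m) (e : g =ᶠ[𝓝[≠] p] g') :
    OrdAt g' p m := by
  obtain ⟨u, u1, u2, u3⟩ := h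
  refine ⟨u, u1, u2, ?_⟩
  filter_upwards [u3, e] with x x1 x2
  rw [← x2, x1]

theorem ord_div {g g' : S → ℂ} {p : S} {m m' : ℤ} (h : OrdAt g p m) (h' : OrdAt g' p m') (k : ℤ) :
    OrdAt (fun x => g x / g' x ^ k) p (m - m' * k) := by
  obtain ⟨u, u1, u2, u3⟩ := h
  obtain ⟨v, v1, v2, v3⟩ := h'
  have v0 : v ((chartAt (Cm 1) p).symm (chartAt (Cm 1) p p)) ≠ 0 := by rwa [(atc p).left_inv]
  refine ⟨fun x => u x / v x ^ k, u1.fun_div (v1.fun_zpow v0) (zpow_ne_zero _ v0),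
    div_ne_zero u2 (zpow_ne_zero _ v2), ?_⟩
  filter_upwards [u3, v3, loc_ne p] with x x1 x2 x3
  rw [x1, x2, mul_zpow, zpow_sub₀ x3, zpow_mul, mul_div_mul_comm]

/-- the function of one complex variable -/
def one (g : S → ℂ) (p : S) (w : ℂ) : ℂ := g ((chartAt (Cm 1) p).symm fun _ => w)

theorem cst_eq (z : Cm 1) : (fun _ => z 0) = z := funext fun i => by rw [Subsingleton.elim i 0]

theorem an_cst (w : ℂ) : AnalyticAt ℂ (fun w : ℂ => (fun _ => w : Cm 1)) w :=
  analyticAt_pi_iff.2 fun _ => analyticAt_id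

theorem An.one {g : S → ℂ} {p : S} (h : An g p) :
    AnalyticAt ℂ (one g p) (chartAt (Cm 1) p p 0) :=
  AnalyticAt.comp (g := fun z => g ((chartAt (Cm 1) p).symm z))
    (f := fun w : ℂ => (fun _ => w : Cm 1)) (by rw [cst_eq]; exact h) (an_cst _)

theorem ev_one {p : S} {P : ℂ → Prop} (h : ∀ᶠ w in 𝓝 (chartAt (Cm 1) p p 0), P w) :
    ∀ᶠ x in 𝓝 p, P (chartAt (Cm 1) p x 0) :=
  ((continuous_apply 0).continuousAt.comp ((chartAt (Cm 1) p).continuousAt (atc p).2)).eventually h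

theorem one_eq (g : S → ℂ) (p : S) : ∀ᶠ x in 𝓝 p, one g p (chartAt (Cm 1) p x 0) = g x := by
  filter_upwards [(chartAt (Cm 1) p).open_source.mem_nhds (atc p).2] with x hx
  rw [one, cst_eq, (chartAt (Cm 1) p).left_inv hx]

theorem ord_of_one {g : S → ℂ} {p : S} {n : ℕ} {v : ℂ → ℂ}
    (v1 : AnalyticAt ℂ v (chartAt (Cm 1) p p 0)) (v2 : v (chartAt (Cm 1) p p 0) ≠ 0)
    (v3 : ∀ᶠ w in 𝓝 (chartAt (Cm 1) p p 0), one g p w = (w - chartAt (Cm 1) p p 0) ^ n • v w) :
    OrdAt g p n := by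
  refine ⟨fun x => v (chartAt (Cm 1) p x 0), ?_, v2, ?_⟩
  · have : AnalyticAt ℂ (fun z : Cm 1 => v (z 0)) (chartAt (Cm 1) p p) :=
      AnalyticAt.comp (g := v) (f := fun z : Cm 1 => z 0) v1
        ((ContinuousLinearMap.proj (R := ℂ) (φ := fun _ : Fin 1 => ℂ) 0).analyticAt _)
    refine this.congr ?_
    filter_upwards [(atc p).nhds_target] with z hz
    rw [(chartAt (Cm 1) p).right_inv hz]
  · filter_upwards [nhdsWithin_le_nhds (ev_one v3), nhdsWithin_le_nhds (one_eq g p)] with x x1 x2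
    rw [← x2, x1, zpow_natCast, smul_eq_mul, mul_comm]

theorem An.ord {g : S → ℂ} {p : S} (h : An g p) (h0 : ¬ ∀ᶠ x in 𝓝 p, g x = 0) :
    ∃ m, OrdAt g p m := by
  obtain ⟨n, v, v1, v2, v3⟩ := h.one.exists_eventuallyEq_pow_smul_nonzero_iff.2 fun e => h0 (by
    filter_upwards [ev_one e, one_eq g p] with x x1 x2
    rw [← x2, x1])
  exact ⟨n, ord_of_one v1 v2 v3⟩

theorem An.ord_one {g : S → ℂ} {p : S} (h : An g p) (h0 : g p = 0)
    (h1 : fderiv ℂ (fun z => g ((chartAt (Cm 1) p).symm z)) (chartAt (Cm 1) p p) (fun _ => 1) ≠ 0) :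
    OrdAt g p 1 := by
  have d : HasDerivAt (fun w : ℂ => (fun _ => w : Cm 1)) (fun _ => 1) (chartAt (Cm 1) p p 0) :=
    hasDerivAt_pi.2 fun _ => hasDerivAt_id _
  have d2 := HasFDerivAt.comp_hasDerivAt_of_eq (hl := (AnalyticAt.differentiableAt h).hasFDerivAt)
    (hf := d) (hy := (cst_eq _).symm)
  have o := h.one.analyticOrderAt_eq_one_of_zero_deriv_ne_zero
    ((one_eq g p).self_of_nhds.trans h0) (by rw [← d2.deriv] at h1; exact h1)
  obtain ⟨v, v1, v2, v3⟩ := (h.one.analyticOrderAt_eq_natCast (n := 1)).1 o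
  exact ord_of_one v1 v2 v3

theorem fin_bad [CompactSpace S] {P : S → Prop} (h : ∀ q, ∀ᶠ x in 𝓝[≠] q, P x) :
    {x | ¬ P x}.Finite := by
  by_contra i
  obtain ⟨q, hq⟩ := Set.Infinite.exists_accPt_principal i
  exact (accPt_iff_frequently_nhdsNE.1 hq) ((h q).mono fun x hx b => b hx)

/-- identity theorem -/
theorem ident [ConnectedSpace S] {P : S → Prop}
    (h : ∀ q, (¬ ∀ᶠ x in 𝓝 q, P x) → ∀ᶠ x in 𝓝[≠] q, ¬ P x) {p : S} (hp : ¬ ∀ᶠ x in 𝓝 p, P x)
    (q : S) : ¬ ∀ᶠ x in 𝓝 q, P x := by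
  have c : IsClopen {q | ∀ᶠ x in 𝓝 q, P x} := by
    refine ⟨isOpen_compl_iff.1 (isOpen_iff_mem_nhds.2 fun y hy => ?_), isOpen_setOf_eventually_nhds⟩
    have := h y hy
    rw [eventually_nhdsWithin_iff] at this
    filter_upwards [this] with x hx b
    by_cases e : x = y
    · exact hy (e ▸ b)
    · exact hx e b.self_of_nhds
  rcases isClopen_iff.1 c with e | e
  · exact fun b => (e ▸ b : q ∈ (∅ : Set S))
  · exact absurd (e ▸ Set.mem_univ p : p ∈ {q | ∀ᶠ x in 𝓝 q, P x}) hp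

variable [T1Space S] [IsManifold 𝓘(ℂ, Cm 1) ω S]

theorem An.chart {g : S → ℂ} {p : S} (h : An g p) {e : Chart 1 S} (he : At e p) :
    AnalyticAt ℂ (fun z => g (e.symm z)) (e p) := by
  have t := (transition he (atc p)).analyticAt
  have := AnalyticAt.comp (g := fun z => g ((chartAt (Cm 1) p).symm z))
    (f := fun z => chartAt (Cm 1) p (e.symm z)) (x := e p) (by rw [he.left_inv]; exact h) t
  refine this.congr ?_
  filter_upwards [he.nhds_at (atc p)] with z hz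
  exact congrArg g hz.2.2.left_inv

theorem mk2 {a b : Fin 2 → ℂ} (ha : a ≠ 0) (hb : b ≠ 0) :
    Projectivization.mk ℂ a ha = Projectivization.mk ℂ b hb ↔ a 0 * b 1 = b 0 * a 1 := by
  rw [Projectivization.mk_eq_mk_iff']
  constructor
  · rintro ⟨c, rfl⟩
    simp only [Pi.smul_apply, smul_eq_mul]
    ring
  · intro h
    by_cases b0 : b 0 = 0
    · have b1 : b 1 ≠ 0 := fun b1 => hb (funext fun i => by fin_cases i <;> assumption)
      refine ⟨a 1 / b 1, funext fun i => ?_⟩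
      fin_cases i
      · rw [b0, zero_mul, mul_eq_zero, or_iff_left b1] at h
        simp [b0, h]
      · simp [b1]
    · refine ⟨a 0 / b 0, funext fun i => ?_⟩
      fin_cases i
      · simp [b0]
      · simp only [Fin.mk_one, Pi.smul_apply, smul_eq_mul]
        rw [div_mul_eq_mul_div, h, mul_div_cancel_left₀ _ b0]

/-- a meromorphic function is a holomorphic map to `ℙ¹` -/
theorem ex_map {u : S → ℂ} (hu : ∀ q, ∃ m, OrdAt u q m) : ∃ Ψ : S → PN 1, HolP 1 Ψ ∧
    (∀ q, ∀ᶠ x in 𝓝[≠] q, ∀ (a : Fin 2 → ℂ) (h : a ≠ 0), Ψ x = Projectivization.mk ℂ a h →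
      a 0 = u x * a 1 ∧ a 1 ≠ 0) ∧
    ∀ p, OrdAt u p 0 → ∀ (a : Fin 2 → ℂ) (h : a ≠ 0), Ψ p = Projectivization.mk ℂ a h →
      a 0 ≠ 0 ∧ a 1 ≠ 0 := by
  have key : ∀ q, ∃ s : S → Fin 2 → ℂ, (∀ i, An (fun x => s x i) q) ∧ s q ≠ 0 ∧
      ∀ᶠ x in 𝓝[≠] q, s x 1 ≠ 0 ∧ s x 0 = u x * s x 1 := by
    intro q
    obtain ⟨m, v, v1, v2, v3⟩ := hu q
    obtain ⟨n, rfl | rfl⟩ := m.eq_nat_or_neg
    · refine ⟨fun x => ![v x * (chartAt (Cm 1) q x 0 - chartAt (Cm 1) q q 0) ^ n, 1],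
        fun i => ?_, fun e => one_ne_zero (congrFun e 1), v3.mono fun x hx => ?_⟩
      · fin_cases i
        · exact AnalyticAt.fun_mul v1 (AnalyticAt.fun_pow (an_loc q) n)
        · exact analyticAt_const
      · simp [hx]
    · refine ⟨fun x => ![v x, (chartAt (Cm 1) q x 0 - chartAt (Cm 1) q q 0) ^ n],
        fun i => ?_, fun e => v2 (congrFun e 0), ?_⟩
      · fin_cases i
        · exact v1
        · exact AnalyticAt.fun_pow (an_loc q) n
      · filter_upwards [v3, loc_ne q] with x x1 x2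
        simp [x1, x2]
  choose s s1 s2 s3 using key
  have main : ∀ q, ∀ᶠ y in 𝓝 q, ∃ h : s q y ≠ 0,
      Projectivization.mk ℂ (s y y) (s2 y) = Projectivization.mk ℂ (s q y) h := by
    intro q
    have s4 := eventually_nhdsWithin_iff.1 (s3 q)
    filter_upwards [s4.eventually_nhds, (s1 q 0).evc, (s1 q 1).evc] with y y1 y2 y3
    by_cases e : y = q
    · subst e
      exact ⟨s2 y, rfl⟩
    refine ⟨fun b => (y1.self_of_nhds e).1 (congrFun b 1), (mk2 _ _).2 ?_⟩
    haveI := nb y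
    refine tendsto_nhds_unique_of_eventuallyEq (l := 𝓝[≠] y)
      ((((s1 y 0).cont.mul y3).tendsto).mono_left nhdsWithin_le_nhds)
      (((y2.mul (s1 y 1).cont).tendsto).mono_left nhdsWithin_le_nhds) ?_
    have ne : ∀ᶠ x in 𝓝 y, x ≠ q → s q x 1 ≠ 0 ∧ s q x 0 = u x * s q x 1 := y1
    filter_upwards [s3 y, nhdsWithin_le_nhds ne, nhdsWithin_le_nhds (eventually_ne_nhds e)]
      with x x1 x2 x3
    simp only [Pi.mul_apply]
    rw [x1.2, (x2 x3).2]
    ring
  refine ⟨fun y => Projectivization.mk ℂ (s y y) (s2 y), fun q => ⟨s q,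
    fun e he => analyticAt_pi_iff.2 fun i => (s1 q i).chart he, main q⟩, fun q => ?_,
    fun p hp a h e => ?_⟩
  · filter_upwards [s3 q, nhdsWithin_le_nhds (main q)] with x x1 ⟨x2, x3⟩ a h e
    have := (mk2 _ _).1 (x3.symm.trans e)
    have a0 : a 0 = u x * a 1 := mul_right_cancel₀ x1.1 (by rw [← this, x1.2]; ring)
    refine ⟨a0, fun a1 => h (funext fun i => ?_)⟩
    fin_cases i
    · simpa [a1] using a0
    · exact a1
  · obtain ⟨v, v1, v2, v3⟩ := hp
    haveI := nb p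
    have k : s p p 0 = v p * s p p 1 := by
      refine tendsto_nhds_unique_of_eventuallyEq (l := 𝓝[≠] p)
        ((s1 p 0).cont.tendsto.mono_left nhdsWithin_le_nhds)
        ((((An.cont v1).mul (s1 p 1).cont).tendsto).mono_left nhdsWithin_le_nhds) ?_
      filter_upwards [s3 p, v3] with x x1 x2
      simp only [Pi.mul_apply]
      rw [x1.2, x2, zpow_zero, mul_one]
    have k1 : s p p 1 ≠ 0 := fun b => s2 p (funext fun i => by
      fin_cases i
      · simpa [b] using k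
      · exact b)
    have := (mk2 _ _).1 e
    have a0 : a 0 = v p * a 1 := mul_right_cancel₀ k1 (by rw [← this, k]; ring)
    have a1 : a 1 ≠ 0 := fun a1 => h (funext fun i => by
      fin_cases i
      · simpa [a1] using a0
      · exact a1)
    exact ⟨a0 ▸ mul_ne_zero v2 a1, a1⟩

end Vale.Agent.P280A.M85

end
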